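import Claimed.Agent.R282.S2C.B.Ge

/-!
# 2C / L-B7: chains with velocity roots (right labels)

`DownR u γ v` : `v = u s_γ`, `γ > 0`, `u γ < 0`.
PLAN.
* `downR_iff`: `Down u v ↔ ∃ γ, DownR u γ v` for `u ∈ W`: `β = -(u γ)`, `γ = -(u⁻¹ β)`;
  `u (reflV γ x) = reflV (u γ) (u x)` by linearity and `isom`; `reflV_neg_root`.
* `ge_iff_chainR`: induction both ways (`ReflTransGen.head_induction_on`).
* `chainR_left`: right labels do not see a left translation BUT the sign condition does; only the
  formula `chainR_apply` is translation invariant.  Do not state more.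
* `chainR_fix`: induction; `reflV γ L = L` if `γ·L = 0`.
* `chainR_telescope`: `u L - v L = ∑_i (γ_i·L) h_{i-1} γ_i`; stated recursively through `chainDisp`.
* `chainR_no_repeat`: in a chain two consecutive labels differ (`h = u s_γ` has `h γ = -u γ > 0`).
Size: ~200 lines.
-/

set_option autoImplicit false

namespace Claimed.Agent.R282.RDatum

variable {n : ℕ} (D : RDatum n)

theorem c2b7_apply_refl {u : Fr n} (γ x : Vec n) : u (reflV γ x) = u x - dot x γ • u γ := by
  rw [reflV, map_sub, map_smul]

theorem downR_iff {u v : Fr n} (hu : u ∈ D.W) : D.Down u v ↔ ∃ γ, D.DownR u γ v := by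
  constructor
  · rintro ⟨β, hβ, hneg, hv⟩
    have hγ : u⁻¹ β ∈ D.roots := D.inv_map_roots hu hβ.1
    have huγ : u (u⁻¹ β) = β := LinearEquiv.apply_symm_apply u β
    refine ⟨-(u⁻¹ β), ⟨D.neg_mem hγ, ?_⟩, ?_, ?_⟩
    · rw [dot_neg_right, ← D.dot_inv hu]
      linarith
    · rw [map_neg, huγ, dot_neg_right]
      linarith [hβ.2]
    · intro x
      rw [hv x, c2b7_apply_refl, map_neg, huγ, dot_neg_right, ← D.dot_inv hu, reflV]
      module
  · rintro ⟨γ, hγ, hneg, hv⟩
    have hβ : u γ ∈ D.roots := D.map_roots u hu γ hγ.1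
    refine ⟨-(u γ), ⟨D.neg_mem hβ, ?_⟩, ?_, ?_⟩
    · rw [dot_neg_right]
      linarith
    · rw [dot_neg_right, D.isom u hu]
      linarith [hγ.2]
    · intro x
      rw [hv x, c2b7_apply_refl, reflV, dot_neg_right, D.isom u hu]
      module

theorem c2b7_downR_mem {u v : Fr n} {γ : Vec n} (hu : u ∈ D.W) (h : D.DownR u γ v) : v ∈ D.W :=
  D.down_mem hu ((D.downR_iff hu).2 ⟨γ, h⟩)

/-- (B11) -/
theorem ge_iff_chainR {u v : Fr n} (hu : u ∈ D.W) : D.Ge u v ↔ ∃ l, D.ChainR u l v := by
  constructor
  · intro h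
    revert hu
    refine Relation.ReflTransGen.head_induction_on (motive := fun a _ => a ∈ D.W → ∃ l, D.ChainR a l v)
      h ?_ ?_
    · intro _
      exact ⟨[], rfl⟩
    · intro a c hac _ ih ha
      obtain ⟨l, hl⟩ := ih (D.down_mem ha hac)
      obtain ⟨γ, hγ⟩ := (D.downR_iff ha).1 hac
      exact ⟨γ :: l, c, hγ, hl⟩
  · rintro ⟨l, hl⟩
    induction l generalizing u with
    | nil =>
      have : u = v := hl
      rw [this]
      exact Relation.ReflTransGen.refl
    | cons γ l ih =>
      obtain ⟨h, hd, hc⟩ := hl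
      exact Relation.ReflTransGen.head ((D.downR_iff hu).2 ⟨γ, hd⟩) (ih (D.c2b7_downR_mem hu hd) hc)

theorem chainR_append {u h v : Fr n} {l l' : List (Vec n)} (h1 : D.ChainR u l h)
    (h2 : D.ChainR h l' v) : D.ChainR u (l ++ l') v := by
  induction l generalizing u with
  | nil =>
    have : u = h := h1
    rw [this]
    exact h2
  | cons γ l ih =>
    obtain ⟨k, hd, hc⟩ := h1
    exact ⟨k, hd, ih hc⟩

/-- (B13) if `L` is orthogonal to all labels, the two ends agree on `L` -/
theorem chainR_fix {u v : Fr n} {l : List (Vec n)} (h : D.ChainR u l v) (L : Vec n)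
    (hL : ∀ γ ∈ l, dot γ L = 0) : u L = v L := by
  induction l generalizing u with
  | nil =>
    have : u = v := h
    rw [this]
  | cons γ l ih =>
    obtain ⟨k, hd, hc⟩ := h
    rw [← ih hc fun γ' hγ' => hL γ' (List.mem_cons_of_mem _ hγ'), hd.2.2 L, c2b7_apply_refl,
      dot_comm, hL γ (List.mem_cons_self ..), zero_smul, sub_zero]

/-- two consecutive labels of a chain differ -/
theorem chainR_no_repeat {u v : Fr n} {l : List (Vec n)} (hu : u ∈ D.W) (h : D.ChainR u l v) :
    l.IsChain (fun a b => a ≠ b) := by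
  induction l generalizing u with
  | nil => exact List.IsChain.nil
  | cons γ l ih =>
    obtain ⟨k, hd, hc⟩ := h
    have hk := D.c2b7_downR_mem hu hd
    have ih' := ih hk hc
    cases l with
    | nil => exact List.IsChain.singleton _
    | cons γ' l' =>
      refine List.IsChain.cons_cons ?_ ih'
      rintro rfl
      obtain ⟨k', hd', -⟩ := hc
      have h1 := hd'.2.1
      rw [hd.2.2 γ, D.reflV_self hd.1.1, map_neg, dot_neg_right] at h1
      linarith [hd.2.1]

/-- the frames visited by a chain: `h_0 = u`, `h_i = h_{i-1} s_{γ_i}` as plain products -/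
theorem chainR_frames {u v : Fr n} {l : List (Vec n)} (hu : u ∈ D.W) (h : D.ChainR u l v) :
    ∃ fs : List (Fr n), fs.length = l.length ∧ (∀ f ∈ fs, f ∈ D.W) ∧
      (u :: fs).getLast (List.cons_ne_nil _ _) = v ∧
      ∀ i (hi : i < l.length), D.DownR ((u :: fs).getD i 1) (l.getD i 0) (fs.getD i 1) := by
  induction l generalizing u with
  | nil =>
    have : u = v := h
    exact ⟨[], rfl, fun f hf => absurd hf List.not_mem_nil, this, fun i hi => absurd hi (Nat.not_lt_zero i)⟩
  | cons γ l ih =>
    obtain ⟨k, hd, hc⟩ := h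
    have hk := D.c2b7_downR_mem hu hd
    obtain ⟨fs, h1, h2, h3, h4⟩ := ih hk hc
    refine ⟨k :: fs, by simp [h1], ?_, ?_, ?_⟩
    · intro f hf
      rcases List.mem_cons.1 hf with rfl | hf
      · exact hk
      · exact h2 f hf
    · rw [List.getLast_cons (List.cons_ne_nil _ _)]
      exact h3
    · intro i hi
      cases i with
      | zero => simpa using hd
      | succ i =>
        have hi' : i < l.length := by simpa using hi
        simpa using h4 i hi'

end Claimed.Agent.R282.RDatum
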