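import Claimed.Agent.R282.S2C.B.Dot

/-!
# 2C / L-B2: chambers and the convex function `phi z = max_w (w ρ)·z`

PLAN.  `W` is finite (`D.finW`), so the set in the definition of `phi` is finite, nonempty (`w = 1`):
`phi` is a maximum (`Set.Finite.csSup_mem`, `le_csSup` with `Set.Finite.bddAbove`).
* `exists_cham z`: take `w ∈ W` maximising `(w ρ)·z`; for a positive root `β` put `γ = w β`
  (a root), `s_γ w ∈ W`, `(s_γ w ρ)·z = (w ρ)·z - ((w ρ)·γ)(γ·z) = (wρ)·z - (ρ·β)(γ·z)`, so `γ·z ≥ 0`,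
  i.e. `(w⁻¹ z)·β ≥ 0`.  `g = w⁻¹`.
* `dot_le_of_cham` (`x ∈ Cham`, `w ∈ W` ⇒ `(w ρ)·x ≤ ρ·x`): among the maximisers `w` of `(wρ)·x`
  choose one maximising `(w ρ)·ρ`.  For `β` positive: if `β·x > 0`, maximality gives `(wρ)·β ≥ 0`;
  if `β·x = 0`, `s_β w` is again a maximiser and the second maximality gives `(wρ)·β ≥ 0`;
  `≠ 0` by `rho_reg` (`dot_inv`).  So `w⁻¹` maps positive roots to positive roots, `w = 1` by `free`.
* `phi_eq`: `phi z = phi (g z)` (reindex `w ↦ g w`, `isom`) `= ρ·(g z)`.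
* `phi_mid`: take `w` with `phi x = (wρ)·x`; `2 (wρ)·x = (wρ)·(x+z) + (wρ)·(x-z)`.
* `phi_continuous`: finite max of continuous functions, or: `|phi x - phi y| ≤ max_w |(wρ)·(x-y)|`.
* `cham_near p`: `ε = min` over roots `β` with `p·β ≠ 0` of `|p·β|` (or 1).  If `g q ∈ Cham` and
  `β` positive with `(g p)·β < 0`: `γ = g⁻¹ β`, `p·γ < 0`, `q·γ ≥ 0`, so `|q·γ - p·γ| ≥ |p·γ| ≥ ε`.
* `rnorm`: `W` permutes the roots (`Finset.sum_bij` with `w⁻¹`), triangle inequality termwise.
Size: ~350 lines.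
-/

set_option autoImplicit false

namespace Claimed.Agent.R282.RDatum

variable {n : ℕ} (D : RDatum n)

theorem c2b_phiSet_finite (z : Vec n) : {r | ∃ w ∈ D.W, r = dot (w D.rho) z}.Finite := by
  haveI := D.finW
  have h : {r | ∃ w ∈ D.W, r = dot (w D.rho) z} =
      Set.range (fun w : D.W => dot (w.1 D.rho) z) := by
    ext r
    constructor
    · rintro ⟨w, hw, rfl⟩
      exact ⟨⟨w, hw⟩, rfl⟩
    · rintro ⟨w, rfl⟩
      exact ⟨w.1, w.2, rfl⟩
  rw [h]
  exact Set.finite_range _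

theorem c2b_phiSet_nonempty (z : Vec n) : {r | ∃ w ∈ D.W, r = dot (w D.rho) z}.Nonempty :=
  ⟨_, 1, D.W.one_mem, rfl⟩

/-- (B5') subgradient inequality -/
theorem phi_ge (z : Vec n) {w : Fr n} (hw : w ∈ D.W) : dot (w D.rho) z ≤ D.phi z :=
  le_csSup (D.c2b_phiSet_finite z).bddAbove ⟨w, hw, rfl⟩

theorem exists_phi_eq (z : Vec n) : ∃ w ∈ D.W, D.phi z = dot (w D.rho) z :=
  (D.c2b_phiSet_nonempty z).csSup_mem (D.c2b_phiSet_finite z)

theorem phi_le {z : Vec n} {r : ℝ} (h : ∀ w ∈ D.W, dot (w D.rho) z ≤ r) : D.phi z ≤ r := by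
  obtain ⟨w, hw, he⟩ := D.exists_phi_eq z
  rw [he]
  exact h w hw

/-- the value after one more reflection -/
theorem c2b_refl_val {w s : Fr n} {γ : Vec n} (hs : ∀ x, s x = reflV γ x) (z : Vec n) :
    dot ((s * w) D.rho) z = dot (w D.rho) z - dot (w D.rho) γ * dot γ z := by
  rw [LinearEquiv.mul_apply, hs, dot_reflV]

/-- (B3) every point lies in a closed chamber -/
theorem exists_cham (z : Vec n) : ∃ g ∈ D.W, D.Cham (g z) := by
  obtain ⟨w, hw, he⟩ := D.exists_phi_eq z
  refine ⟨w⁻¹, D.W.inv_mem hw, fun β hβ => ?_⟩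
  rw [D.dot_inv (D.W.inv_mem hw), inv_inv]
  obtain ⟨s, hs, hs'⟩ := D.refl_mem (w β) (D.map_roots w hw β hβ.1)
  have h1 := D.phi_ge z (D.W.mul_mem hs hw)
  rw [D.c2b_refl_val hs', he, D.isom w hw] at h1
  have h2 := hβ.2
  rw [dot_comm z]
  by_contra hcon
  have : dot D.rho β * dot (w β) z < 0 := mul_neg_of_pos_of_neg h2 (not_le.1 hcon)
  linarith

theorem c2b_phi_cham {x : Vec n} (hx : D.Cham x) : D.phi x = dot D.rho x := by
  haveI := D.finW
  -- the set of maximisers
  have hfin : {w : Fr n | w ∈ D.W ∧ D.phi x = dot (w D.rho) x}.Finite :=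
    Set.Finite.subset (Set.toFinite (D.W : Set (Fr n))) fun w hw => hw.1
  obtain ⟨w0, hw0, he0⟩ := D.exists_phi_eq x
  obtain ⟨w, ⟨hw, he⟩, hmax⟩ := Set.exists_max_image _ (fun w : Fr n => dot (w D.rho) D.rho) hfin
    ⟨w0, hw0, he0⟩
  have hone : w⁻¹ = 1 := by
    apply D.free _ (D.W.inv_mem hw)
    intro β hβ hpos
    rw [← D.dot_inv hw]
    by_contra hcon
    have hne : dot (w D.rho) β ≠ 0 := by
      rw [D.dot_inv hw]
      exact D.rho_reg _ (D.inv_map_roots hw hβ)
    have hneg : dot (w D.rho) β < 0 := lt_of_le_of_ne (not_lt.1 hcon) hne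
    obtain ⟨s, hs, hs'⟩ := D.refl_mem β hβ
    have hsw := D.W.mul_mem hs hw
    have h1 := D.phi_ge x hsw
    have h1' := D.c2b_refl_val (w := w) hs' x
    have hxβ : 0 ≤ dot β x := by
      rw [dot_comm]
      exact hx β ⟨hβ, hpos⟩
    have h2 : dot (w D.rho) β * dot β x ≤ 0 := mul_nonpos_of_nonpos_of_nonneg hneg.le hxβ
    have h3 : D.phi x = dot ((s * w) D.rho) x := by linarith
    have h4 := hmax (s * w) ⟨hsw, h3⟩
    rw [D.c2b_refl_val hs'] at h4
    have h5 : dot (w D.rho) β * dot β D.rho < 0 := by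
      rw [dot_comm β]
      exact mul_neg_of_neg_of_pos hneg hpos
    linarith
  have hone' : w = 1 := by
    rw [← inv_inv w, hone, inv_one]
  rw [he, hone']
  rfl

theorem dot_le_of_cham {x : Vec n} (hx : D.Cham x) {w : Fr n} (hw : w ∈ D.W) :
    dot (w D.rho) x ≤ dot D.rho x := by
  rw [← D.c2b_phi_cham hx]
  exact D.phi_ge x hw

theorem phi_inv (z : Vec n) {g : Fr n} (hg : g ∈ D.W) : D.phi (g z) = D.phi z := by
  apply le_antisymm
  · apply D.phi_le
    intro w hw
    have := D.phi_ge z (D.W.mul_mem (D.W.inv_mem hg) hw)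
    rwa [LinearEquiv.mul_apply, D.dot_inv (D.W.inv_mem hg), inv_inv] at this
  · apply D.phi_le
    intro w hw
    have := D.phi_ge (g z) (D.W.mul_mem hg hw)
    rwa [LinearEquiv.mul_apply, D.isom g hg] at this

/-- (B5) -/
theorem phi_eq {z : Vec n} {g : Fr n} (hg : g ∈ D.W) (h : D.Cham (g z)) :
    D.phi z = dot D.rho (g z) := by
  rw [← D.phi_inv z hg, D.c2b_phi_cham h]

/-- (B5'') midpoint convexity -/
theorem phi_mid (x z : Vec n) : 2 * D.phi x ≤ D.phi (x + z) + D.phi (x - z) := by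
  obtain ⟨w, hw, he⟩ := D.exists_phi_eq x
  have h1 := D.phi_ge (x + z) hw
  have h2 := D.phi_ge (x - z) hw
  rw [dot_add_right] at h1
  rw [dot_sub_right] at h2
  linarith

/-- (B5''') -/
theorem phi_continuous : Continuous D.phi := by
  haveI := D.finW
  haveI := Fintype.ofFinite D.W
  have h : D.phi = fun z => Finset.univ.sup' (⟨1, Finset.mem_univ _⟩ : (Finset.univ :
      Finset D.W).Nonempty) (fun w : D.W => dot (w.1 D.rho) z) := by
    funext z
    apply le_antisymm
    · apply D.phi_le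
      intro w hw
      exact Finset.le_sup' (fun w : D.W => dot (w.1 D.rho) z) (Finset.mem_univ ⟨w, hw⟩)
    · apply Finset.sup'_le
      intro w _
      exact D.phi_ge z w.2
  rw [h]
  apply Continuous.finset_sup'_apply
  intro w _
  have := continuous_dot_left (w.1 D.rho)
  have h2 : (fun x : Vec n => dot x (w.1 D.rho)) = fun x => dot (w.1 D.rho) x := by
    funext x
    exact dot_comm _ _
  rw [h2] at this
  exact this

theorem rnorm_nonneg (x : Vec n) : 0 ≤ D.rnorm x :=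
  Finset.sum_nonneg fun _ _ => abs_nonneg _

theorem rnorm_add_le (x y : Vec n) : D.rnorm (x + y) ≤ D.rnorm x + D.rnorm y := by
  unfold rnorm
  rw [← Finset.sum_add_distrib]
  apply Finset.sum_le_sum
  intro γ _
  rw [dot_add_left]
  exact abs_add_le _ _

theorem rnorm_smul (r : ℝ) (x : Vec n) : D.rnorm (r • x) = |r| * D.rnorm x := by
  unfold rnorm
  rw [Finset.mul_sum]
  apply Finset.sum_congr rfl
  intro γ _
  rw [dot_smul_left, abs_mul]

theorem rnorm_frame {w : Fr n} (hw : w ∈ D.W) (x : Vec n) : D.rnorm (w x) = D.rnorm x := by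
  unfold rnorm
  apply Finset.sum_nbij' (fun γ => w⁻¹ γ) (fun γ => w γ)
  · intro γ hγ
    exact D.inv_map_roots hw hγ
  · intro γ hγ
    exact D.map_roots w hw γ hγ
  · intro γ _
    exact LinearEquiv.apply_symm_apply w γ
  · intro γ _
    exact LinearEquiv.symm_apply_apply w γ
  · intro γ _
    rw [D.dot_inv hw]

theorem abs_dot_le_rnorm (x : Vec n) {β : Vec n} (hβ : β ∈ D.roots) : |dot x β| ≤ D.rnorm x :=
  Finset.single_le_sum (f := fun γ => |dot x γ|) (fun _ _ => abs_nonneg _) hβ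

theorem rnorm_zero : D.rnorm (0 : Vec n) = 0 := by
  unfold rnorm
  apply Finset.sum_eq_zero
  intro γ _
  rw [dot_zero_left, abs_zero]

theorem rnorm_neg (x : Vec n) : D.rnorm (-x) = D.rnorm x := by
  have := D.rnorm_smul (-1) x
  simpa using this

theorem rnorm_sub_le (x y : Vec n) : D.rnorm (x - y) ≤ D.rnorm x + D.rnorm y := by
  rw [sub_eq_add_neg, ← D.rnorm_neg y]
  exact D.rnorm_add_le _ _

theorem c2b_exists_eps {ι : Type*} (s : Finset ι) (f : ι → ℝ) :
    ∃ ε > 0, ∀ b ∈ s, f b ≠ 0 → ε ≤ |f b| := by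
  classical
  induction s using Finset.induction_on with
  | empty => exact ⟨1, one_pos, fun b hb => absurd hb (Finset.notMem_empty b)⟩
  | insert a s _ ih =>
    obtain ⟨ε, hε, h⟩ := ih
    by_cases ha : f a = 0
    · refine ⟨ε, hε, fun b hb hne => ?_⟩
      rcases Finset.mem_insert.1 hb with rfl | hb
      · exact absurd ha hne
      · exact h b hb hne
    · refine ⟨min ε |f a|, lt_min hε (abs_pos.2 ha), fun b hb hne => ?_⟩
      rcases Finset.mem_insert.1 hb with rfl | hb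
      · exact min_le_right _ _
      · exact (min_le_left _ _).trans (h b hb hne)

/-- (B6) chambers containing a nearby point contain the point -/
theorem cham_near (p : Vec n) : ∃ ε > 0, ∀ q : Vec n, D.rnorm (q - p) < ε → ∀ g ∈ D.W,
    D.Cham (g q) → D.Cham (g p) := by
  obtain ⟨ε, hε, h⟩ := c2b_exists_eps D.roots (fun β => dot p β)
  refine ⟨ε, hε, fun q hq g hg hc β hβ => ?_⟩
  by_contra hcon
  have hneg : dot (g p) β < 0 := not_le.1 hcon
  have hγ : g⁻¹ β ∈ D.roots := D.inv_map_roots hg hβ.1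
  rw [D.dot_inv hg] at hneg
  have h1 := hc β hβ
  rw [D.dot_inv hg] at h1
  have h2 := h _ hγ hneg.ne
  rw [abs_of_neg hneg] at h2
  have h3 := D.abs_dot_le_rnorm (q - p) hγ
  rw [dot_sub_left] at h3
  have h4 := le_abs_self (dot q (g⁻¹ β) - dot p (g⁻¹ β))
  linarith

/-- in a regular point of the chamber, the sign of a root is read off -/
theorem pos_of_dot_pos {x : Vec n} (hx : D.Cham x) {β : Vec n} (hβ : β ∈ D.roots)
    (h : 0 < dot x β) : D.Pos β := by
  rcases D.pos_or_neg hβ with h1 | h1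
  · exact h1
  · have := hx _ h1
    rw [dot_neg_right] at this
    linarith

end Claimed.Agent.R282.RDatum
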