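import Claimed.Agent.R282.S2C.Abs
import Claimed.Agent.R282.Defs.Dot

/-!
# 2C / B0: algebra of `dot`, `reflV`, roots and frames (foundation for all leaves of 2C)
-/

set_option autoImplicit false

namespace Claimed.Agent.R282

variable {n : ℕ}

theorem dot_reflV (β x y : Vec n) : dot (reflV β x) y = dot x y - dot x β * dot β y := by
  rw [reflV, dot_sub_left, dot_smul_left]

theorem reflV_add (β x y : Vec n) : reflV β (x + y) = reflV β x + reflV β y := by
  simp only [reflV, dot_add_left, add_smul]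
  abel

theorem reflV_smul (β : Vec n) (r : ℝ) (x : Vec n) : reflV β (r • x) = r • reflV β x := by
  simp only [reflV, dot_smul_left, smul_sub, smul_smul]

theorem reflV_neg_root (β x : Vec n) : reflV (-β) x = reflV β x := by
  simp only [reflV, dot_neg_right, smul_neg, neg_smul, neg_neg]

namespace RDatum

variable (D : RDatum n)

theorem reflV_self {β : Vec n} (hβ : β ∈ D.roots) : reflV β β = -β := by
  rw [reflV, D.norm_two β hβ, two_smul]
  abel

theorem reflV_invol {β : Vec n} (hβ : β ∈ D.roots) (x : Vec n) : reflV β (reflV β x) = x := by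
  have h2 := D.norm_two β hβ
  simp only [reflV, dot_sub_left, dot_smul_left, h2]
  have : dot x β - dot x β * 2 = - dot x β := by ring
  rw [this, neg_smul]
  abel

theorem reflV_mem {α β : Vec n} (hα : α ∈ D.roots) (hβ : β ∈ D.roots) : reflV α β ∈ D.roots := by
  obtain ⟨w, hw, h⟩ := D.refl_mem α hα
  rw [← h β]
  exact D.map_roots w hw β hβ

theorem neg_mem {β : Vec n} (hβ : β ∈ D.roots) : -β ∈ D.roots := by
  rw [← D.reflV_self hβ]
  exact D.reflV_mem hβ hβ

theorem add_mem_of_pair {α β : Vec n} (hα : α ∈ D.roots) (hβ : β ∈ D.roots)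
    (h : dot α β = -1) : α + β ∈ D.roots := by
  have := D.reflV_mem hβ hα
  rwa [reflV, h, neg_one_smul, sub_neg_eq_add] at this

theorem sub_mem_of_pair {α β : Vec n} (hα : α ∈ D.roots) (hβ : β ∈ D.roots)
    (h : dot α β = 1) : α - β ∈ D.roots := by
  have := D.reflV_mem hβ hα
  rwa [reflV, h, one_smul] at this

/-- adjunction -/
theorem dot_inv {w : Fr n} (hw : w ∈ D.W) (x y : Vec n) : dot (w x) y = dot x (w⁻¹ y) := by
  have := D.isom w hw x (w⁻¹ y)
  rw [← this]
  congr 1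
  exact (LinearEquiv.apply_symm_apply w y).symm

theorem inv_map_roots {w : Fr n} (hw : w ∈ D.W) {β : Vec n} (hβ : β ∈ D.roots) :
    w⁻¹ β ∈ D.roots :=
  D.map_roots _ (D.W.inv_mem hw) β hβ

/-- a root is positive or its negative is -/
theorem pos_or_neg {β : Vec n} (hβ : β ∈ D.roots) : D.Pos β ∨ D.Pos (-β) := by
  rcases lt_or_gt_of_ne (D.rho_reg β hβ) with h | h
  · right
    exact ⟨D.neg_mem hβ, by rw [dot_neg_right]; linarith⟩
  · left
    exact ⟨hβ, h⟩

theorem rho_reg' : D.Reg D.rho := fun _ hβ => hβ.2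

theorem Reg.cham {D : RDatum n} {x : Vec n} (h : D.Reg x) : D.Cham x :=
  fun β hβ => (h β hβ).le

/-- sign rule: for `u ∈ W` and a root `β`, the sign of `(u ρ)·β` controls `(u d)·β` -/
theorem dot_frame_nonpos {u : Fr n} (hu : u ∈ D.W) {β : Vec n} (hβ : β ∈ D.roots)
    (h : dot (u D.rho) β < 0) {d : Vec n} (hd : D.Cham d) : dot (u d) β ≤ 0 := by
  rw [D.dot_inv hu] at h ⊢
  have hpos : D.Pos (-(u⁻¹ β)) :=
    ⟨D.neg_mem (D.inv_map_roots hu hβ), by rw [dot_neg_right]; linarith⟩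
  have := hd _ hpos
  rw [dot_neg_right] at this
  linarith

theorem dot_frame_neg {u : Fr n} (hu : u ∈ D.W) {β : Vec n} (hβ : β ∈ D.roots)
    (h : dot (u D.rho) β < 0) {d : Vec n} (hd : D.Reg d) : dot (u d) β < 0 := by
  rw [D.dot_inv hu] at h ⊢
  have hpos : D.Pos (-(u⁻¹ β)) :=
    ⟨D.neg_mem (D.inv_map_roots hu hβ), by rw [dot_neg_right]; linarith⟩
  have := hd _ hpos
  rw [dot_neg_right] at this
  linarith

theorem dot_frame_nonneg {u : Fr n} (hu : u ∈ D.W) {β : Vec n} (hβ : β ∈ D.roots)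
    (h : 0 < dot (u D.rho) β) {d : Vec n} (hd : D.Cham d) : 0 ≤ dot (u d) β := by
  rw [D.dot_inv hu] at h ⊢
  exact hd _ ⟨D.inv_map_roots hu hβ, h⟩

theorem dot_frame_pos {u : Fr n} (hu : u ∈ D.W) {β : Vec n} (hβ : β ∈ D.roots)
    (h : 0 < dot (u D.rho) β) {d : Vec n} (hd : D.Reg d) : 0 < dot (u d) β := by
  rw [D.dot_inv hu] at h ⊢
  exact hd _ ⟨D.inv_map_roots hu hβ, h⟩

/-- conversely, one regular vector decides the sign -/
theorem dot_frame_rho_neg {u : Fr n} (hu : u ∈ D.W) {β : Vec n} (hβ : β ∈ D.roots)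
    {d : Vec n} (hd : D.Cham d) (h : dot (u d) β < 0) : dot (u D.rho) β < 0 := by
  by_contra hcon
  have h1 : dot (u D.rho) β ≠ 0 := by
    rw [D.dot_inv hu]
    exact D.rho_reg _ (D.inv_map_roots hu hβ)
  have h2 : 0 < dot (u D.rho) β := lt_of_le_of_ne (not_lt.1 hcon) (Ne.symm h1)
  have := D.dot_frame_nonneg hu hβ h2 hd
  linarith

theorem dot_frame_rho_pos {u : Fr n} (hu : u ∈ D.W) {β : Vec n} (hβ : β ∈ D.roots)
    {d : Vec n} (hd : D.Cham d) (h : 0 < dot (u d) β) : 0 < dot (u D.rho) β := by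
  by_contra hcon
  have h1 : dot (u D.rho) β ≠ 0 := by
    rw [D.dot_inv hu]
    exact D.rho_reg _ (D.inv_map_roots hu hβ)
  have h2 : dot (u D.rho) β < 0 := lt_of_le_of_ne (not_lt.1 hcon) h1
  have := D.dot_frame_nonpos hu hβ h2 hd
  linarith

end RDatum

end Claimed.Agent.R282
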