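import Claimed.Agent.R282.S2C.B.ChainR

/-!
# 2C / L-B8 + L-B9: the SORTED CHAIN LEMMA (replaces Lemma "Flag orbit polytopes")

`flip` (L-B8): two consecutive downward steps `u →γ₁ h →γ₂ v` with `T γ₂ < T γ₁` can be replaced by
`u →γ₁' h' →γ₂' v` with `T γ₁' < T γ₁`.
Write `N = {γ > 0 : u γ < 0}`.  `γ₁ ∈ N`, and `h γ₂ = u (reflV γ₁ γ₂) < 0`.  `γ₁ ≠ γ₂`.  Cases (`pair_int`):
 (0) `γ₁·γ₂ = 0`: `(γ₂, γ₁)`.
 (-1) `γ₁·γ₂ = -1`, `c = γ₁ + γ₂` root, `u c < 0` is the second step condition.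
     (a) `u γ₂ < 0`: `(γ₂, c)`   [`u s_{γ₂} c = u γ₁ < 0`; `s_{γ₁} s_{γ₂} = s_{γ₂} s_c`]
     (b) `u γ₂ > 0`: `(c, γ₁)`   [`u s_c γ₁ = - u γ₂ < 0`; `s_{γ₁} s_{γ₂} = s_c s_{γ₁}`]
     `T γ₂ < T γ₁` and convexity give `T γ₂ < T c < T γ₁`.
 (+1) `γ₁·γ₂ = 1`: `γ₂ - γ₁` or `γ₁ - γ₂` is a positive root `b`.
     (c) `γ₂ = γ₁ + b`: second condition: `u (reflV γ₁ γ₂) = u b < 0`.  New route `(b, γ₁)`
         [`u s_b γ₁ = u γ₂ = u γ₁ + u b < 0`; `s_{γ₁} s_{γ₂} = s_b s_{γ₁}`];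
         `T γ₂ < T γ₁`, `γ₂ = γ₁ + b` ⇒ `T b < T γ₂ < T γ₁`.
     (d) `γ₁ = γ₂ + b`: second condition: `u (reflV γ₁ γ₂) = u (γ₂ - γ₁) = - u b < 0`, so `u b > 0`,
         hence `u γ₂ = u γ₁ - u b < 0`.  New route `(γ₂, b)`
         [`u s_{γ₂} b = u γ₁ < 0`; `s_{γ₁} s_{γ₂} = s_{γ₂} s_b`]; `T γ₂ < T γ₁`.
   ("`u x < 0`" means `ρ·(u x) < 0`; all identities of reflections: ext + `reflV` + `ring`/`module`.)
`sorted_chain` (L-B9): bubble sort.  Termination: the list of labels `(T γ₁, T γ₂, …)` decreases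
lexicographically and takes values in the finite set `T '' roots`; e.g. strong induction on
`∑_i rank(T γ_i) * (|roots|+1)^(m-i)`, or induction on the length `m`: sort the tail (IH), then if
the head is out of order flip the first two and recurse on `rank (T γ₁)` (well-founded on ℕ):
`sortAux : ∀ r m, (chains of length m with rank (T head) ≤ r)`.
Size: L-B8 ~300 lines, L-B9 ~200 lines.
-/

set_option autoImplicit false

namespace Claimed.Agent.R282.RDatum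

variable {n : ℕ} (D : RDatum n)

theorem c2b8_conjL (a b x : Vec n) (ha : dot a a = 2) :
    reflV a (reflV b x) = reflV (reflV a b) (reflV a x) := by
  simp only [reflV, dot_sub_left, dot_sub_right, dot_smul_left, dot_smul_right, ha, dot_comm b a]
  module

theorem c2b8_conjR (a b x : Vec n) (hb : dot b b = 2) :
    reflV a (reflV b x) = reflV b (reflV (reflV b a) x) := by
  simp only [reflV, dot_sub_left, dot_sub_right, dot_smul_left, dot_smul_right, hb, dot_comm b a]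
  module

theorem c2b8_mk {u v : Fr n} {a b : Vec n} (ha : D.Pos a) (hb : D.Pos b)
    (h1 : dot D.rho (u a) < 0) (h2 : dot D.rho (u (reflV a b)) < 0)
    (hv : ∀ x, v x = u (reflV a (reflV b x))) : ∃ h', D.DownR u a h' ∧ D.DownR h' b v := by
  obtain ⟨s, -, hs⟩ := D.refl_mem a ha.1
  refine ⟨u * s, ⟨ha, h1, fun x => ?_⟩, hb, ?_, fun x => ?_⟩
  · rw [LinearEquiv.mul_apply, hs]
  · rw [LinearEquiv.mul_apply, hs]; exact h2
  · rw [LinearEquiv.mul_apply, hs]; exact hv x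

/-- (L-B8) diamond flip -/
theorem flip {u h v : Fr n} {γ₁ γ₂ : Vec n} (hu : u ∈ D.W) (h1 : D.DownR u γ₁ h)
    (h2 : D.DownR h γ₂ v) {T : Vec n → ℝ} (hT : D.ConvexLabel T) (hbad : T γ₂ < T γ₁) :
    ∃ h' γ₁' γ₂', D.DownR u γ₁' h' ∧ D.DownR h' γ₂' v ∧ T γ₁' < T γ₁ := by
  obtain ⟨hp1, hn1, hh⟩ := h1
  obtain ⟨hp2, hn2, hv⟩ := h2
  rw [hh] at hn2
  have hvv : ∀ x, v x = u (reflV γ₁ (reflV γ₂ x)) := fun x => by rw [hv, hh]
  have n1 := D.norm_two _ hp1.1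
  have n2 := D.norm_two _ hp2.1
  have hne : γ₁ ≠ γ₂ := by
    rintro rfl
    exact lt_irrefl _ hbad
  have hne' : γ₁ ≠ -γ₂ := by
    intro e
    have := hp1.2
    rw [e, dot_neg_right] at this
    linarith [hp2.2]
  rcases D.pair_int _ hp1.1 _ hp2.1 hne hne' with h12 | h12 | h12
  · -- `+1`
    have h21 : dot γ₂ γ₁ = 1 := by rw [dot_comm]; exact h12
    have hbr : γ₂ - γ₁ ∈ D.roots := D.sub_mem_of_pair hp2.1 hp1.1 h21
    have e12 : reflV γ₁ γ₂ = γ₂ - γ₁ := by rw [reflV, h21, one_smul]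
    have e21 : reflV γ₂ γ₁ = γ₁ - γ₂ := by rw [reflV, h12, one_smul]
    rw [e12] at hn2
    rcases D.pos_or_neg hbr with hb | hb
    · -- (c)
      have e3 : reflV (γ₂ - γ₁) γ₁ = γ₂ := by
        simp only [reflV, dot_sub_right, n1, h12]
        module
      obtain ⟨h', ha, hb'⟩ := D.c2b8_mk (u := u) (v := v) hb hp1 hn2
        (by
          rw [e3]
          have : γ₂ = γ₁ + (γ₂ - γ₁) := by abel
          rw [this, map_add, dot_add_right]
          linarith)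
        (fun x => by rw [hvv, c2b8_conjL _ _ _ n1, e12])
      refine ⟨h', _, _, ha, hb', ?_⟩
      have hs : γ₁ + (γ₂ - γ₁) = γ₂ := by abel
      rcases hT γ₁ (γ₂ - γ₁) hp1 hb (by rw [hs]; exact hp2.1) with hc | hc | hc
      · rw [hs] at hc; linarith [hc.1]
      · rw [hs] at hc; linarith [hc.1, hc.2]
      · rw [hs] at hc; linarith [hc.1]
    · -- (d)
      have hb2 : -(γ₂ - γ₁) = γ₁ - γ₂ := by abel
      rw [hb2] at hb
      have e3 : reflV γ₂ (γ₁ - γ₂) = γ₁ := by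
        simp only [reflV, dot_sub_left, n2, h12]
        module
      have hn3 : dot D.rho (u γ₂) < 0 := by
        rw [map_sub, dot_sub_right] at hn2
        linarith
      obtain ⟨h', ha, hb'⟩ := D.c2b8_mk (u := u) (v := v) hp2 hb hn3
        (by rw [e3]; exact hn1)
        (fun x => by rw [hvv, c2b8_conjR _ _ _ n2, e21])
      exact ⟨h', _, _, ha, hb', hbad⟩
  · -- `0`
    have h21 : dot γ₂ γ₁ = 0 := by rw [dot_comm]; exact h12
    have e12 : reflV γ₁ γ₂ = γ₂ := by rw [reflV, h21, zero_smul, sub_zero]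
    have e21 : reflV γ₂ γ₁ = γ₁ := by rw [reflV, h12, zero_smul, sub_zero]
    rw [e12] at hn2
    obtain ⟨h', ha, hb'⟩ := D.c2b8_mk (u := u) (v := v) hp2 hp1 hn2
      (by rw [e21]; exact hn1)
      (fun x => by rw [hvv, c2b8_conjR _ _ _ n2, e21])
    exact ⟨h', _, _, ha, hb', hbad⟩
  · -- `-1`
    have h21 : dot γ₂ γ₁ = -1 := by rw [dot_comm]; exact h12
    have hcr : γ₁ + γ₂ ∈ D.roots := D.add_mem_of_pair hp1.1 hp2.1 h12
    have hc : D.Pos (γ₁ + γ₂) := ⟨hcr, by rw [dot_add_right]; linarith [hp1.2, hp2.2]⟩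
    have e12 : reflV γ₁ γ₂ = γ₁ + γ₂ := by rw [reflV, h21]; module
    have e21 : reflV γ₂ γ₁ = γ₁ + γ₂ := by rw [reflV, h12]; module
    rw [e12] at hn2
    rcases lt_or_gt_of_ne (D.rho_reg _ (D.map_roots u hu _ hp2.1)) with hs | hs
    · -- (a)
      have e3 : reflV γ₂ (γ₁ + γ₂) = γ₁ := by
        simp only [reflV, dot_add_left, n2, h12]
        module
      obtain ⟨h', ha, hb'⟩ := D.c2b8_mk (u := u) (v := v) hp2 hc hs
        (by rw [e3]; exact hn1)
        (fun x => by rw [hvv, c2b8_conjR _ _ _ n2, e21])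
      exact ⟨h', _, _, ha, hb', hbad⟩
    · -- (b)
      have e3 : reflV (γ₁ + γ₂) γ₁ = -γ₂ := by
        simp only [reflV, dot_add_right, n1, h12]
        module
      obtain ⟨h', ha, hb'⟩ := D.c2b8_mk (u := u) (v := v) hc hp1 hn2
        (by rw [e3, map_neg, dot_neg_right]; linarith)
        (fun x => by rw [hvv, c2b8_conjL _ _ _ n1, e12])
      refine ⟨h', _, _, ha, hb', ?_⟩
      rcases hT γ₁ γ₂ hp1 hp2 hcr with hc' | hc' | hc'
      · linarith [hc'.1, hc'.2]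
      · exact hc'.2
      · linarith [hc'.1, hc'.2]

end Claimed.Agent.R282.RDatum
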