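import Claimed.Agent.R282.S2C.B.Dot

/-!
# 2C / L-B1: first properties of the Bruhat order `Ge = ReflTransGen Down`

PLAN.  One step `Down u v`: `v x = reflV β (u x)`, `β` positive, `(u ρ)·β < 0`.
* `down_mem`: `v = s * u` with `s ∈ W` from `refl_mem` (ext on vectors).
* `ge_dot_le`: one step: `f·(v d) = f·(u d) - ((u d)·β)(β·f)`; `(u d)·β ≤ 0` by `dot_frame_nonpos`,
  `β·f ≥ 0` as `f ∈ Cham`.  Induct on `ReflTransGen` (use `ge_mem` to keep `u ∈ W`).
* `ge_dot_lt`: head step is strict (`dot_frame_neg`), the rest weak.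
* `ge_antisymm`: from `ge_dot_lt` with `d = f = ρ`.
* `ge_mul_left_refl` etc. are NOT true in general: do not try.
Size: ~120 lines.
-/

set_option autoImplicit false

namespace Claimed.Agent.R282.RDatum

variable {n : ℕ} (D : RDatum n)

theorem down_mem {u v : Fr n} (hu : u ∈ D.W) (h : D.Down u v) : v ∈ D.W := by
  obtain ⟨β, hβ, -, hv⟩ := h
  obtain ⟨s, hs, hs'⟩ := D.refl_mem β hβ.1
  have : v = s * u := by
    ext1 x
    rw [hv x, LinearEquiv.mul_apply, hs']
  rw [this]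
  exact D.W.mul_mem hs hu

/-- (B1) -/
theorem ge_mem {u v : Fr n} (hu : u ∈ D.W) (h : D.Ge u v) : v ∈ D.W := by
  induction h with
  | refl => exact hu
  | tail _ h2 ih => exact D.down_mem ih h2

theorem down_dot_le {u v : Fr n} (hu : u ∈ D.W) (h : D.Down u v) {d f : Vec n} (hd : D.Cham d)
    (hf : D.Cham f) : dot f (u d) ≤ dot f (v d) := by
  obtain ⟨β, hβ, hneg, hv⟩ := h
  rw [hv d, dot_comm f, dot_comm f, dot_reflV]
  have h1 := D.dot_frame_nonpos hu hβ.1 hneg hd
  have h2 := hf β hβ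
  rw [dot_comm] at h2
  nlinarith

theorem down_dot_lt {u v : Fr n} (hu : u ∈ D.W) (h : D.Down u v) {d f : Vec n} (hd : D.Reg d)
    (hf : D.Reg f) : dot f (u d) < dot f (v d) := by
  obtain ⟨β, hβ, hneg, hv⟩ := h
  rw [hv d, dot_comm f, dot_comm f, dot_reflV]
  have h1 := D.dot_frame_neg hu hβ.1 hneg hd
  have h2 := hf β hβ
  rw [dot_comm] at h2
  nlinarith

/-- (B2) `u ≥ v ⇒ v d - u d` is a nonnegative combination of positive roots -/
theorem ge_dot_le {u v : Fr n} (hu : u ∈ D.W) (h : D.Ge u v) {d f : Vec n} (hd : D.Cham d)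
    (hf : D.Cham f) : dot f (u d) ≤ dot f (v d) := by
  induction h with
  | refl => exact le_rfl
  | tail h1 h2 ih => exact ih.trans (D.down_dot_le (D.ge_mem hu h1) h2 hd hf)

/-- (B2') -/
theorem ge_dot_lt {u v : Fr n} (hu : u ∈ D.W) (h : D.Ge u v) (hne : u ≠ v) {d f : Vec n}
    (hd : D.Reg d) (hf : D.Reg f) : dot f (u d) < dot f (v d) := by
  induction h with
  | refl => exact absurd rfl hne
  | tail h1 h2 _ =>
    exact lt_of_le_of_lt (D.ge_dot_le hu h1 hd.cham hf.cham)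
      (D.down_dot_lt (D.ge_mem hu h1) h2 hd hf)

theorem ge_antisymm {u v : Fr n} (hu : u ∈ D.W) (h : D.Ge u v) (h' : D.Ge v u) : u = v := by
  by_contra hne
  have h1 := D.ge_dot_lt hu h hne D.rho_reg' D.rho_reg'
  have h2 := D.ge_dot_le (D.ge_mem hu h) h' D.rho_reg'.cham D.rho_reg'.cham
  linarith

theorem down_ne {u v : Fr n} (hu : u ∈ D.W) (h : D.Down u v) : u ≠ v := by
  intro he
  have h1 := D.down_dot_lt hu h D.rho_reg' D.rho_reg'
  rw [he] at h1
  exact lt_irrefl _ h1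

end Claimed.Agent.R282.RDatum
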