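import Claimed.Agent.R282.S2C.B.Dot

/-!
# 2C / L-B3: simple roots (simply-laced, by height induction; no bases, no Cartan matrix)

`Simple α` : positive and not a sum of two positive roots.
PLAN.
* `simple_perm`: `β ≠ α` positive; `β ≠ -α` (signs).  `pair_int` gives `α·β ∈ {1,0,-1}`.
  `0`: `reflV α β = β`.  `-1`: `β + α`, positive since `ρ·` adds; a root by `reflV_mem`.
  `1`: `β - α` is a root; if it were negative then `α = β + (α - β)` is a sum of two positive roots.
* `exists_simple_neg`: strong induction on the height `ρ·β` over the FINITE set of positive roots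
  (e.g. `Finset.exists_min_image` on the set of positive roots `β'` with `p·β' = 0`, `ρ·(w β') < 0`):
  a minimal such `β'` is simple; otherwise `β' = β₁ + β₂`, both positive, `p·β_i ≥ 0` with sum `0`,
  so both `= 0`; `ρ·(wβ₁) + ρ·(wβ₂) < 0`, so one of them is negative and has smaller height.
Size: ~150 lines.
-/

set_option autoImplicit false

namespace Claimed.Agent.R282.RDatum

variable {n : ℕ} (D : RDatum n)

/-- a simple reflection permutes the other positive roots -/
theorem simple_perm {α β : Vec n} (hα : D.Simple α) (hβ : D.Pos β) (hne : β ≠ α) :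
    D.Pos (reflV α β) := by
  have hroot : reflV α β ∈ D.roots := D.reflV_mem hα.1.1 hβ.1
  have hne' : β ≠ -α := by
    intro h
    have h1 := hβ.2
    rw [h, dot_neg_right] at h1
    have h2 := hα.1.2
    linarith
  rcases D.pair_int β hβ.1 α hα.1.1 hne hne' with h | h | h
  · rcases D.pos_or_neg hroot with hp | hp
    · exact hp
    · exfalso
      apply hα.2 β (-(reflV α β)) hβ hp
      rw [reflV, h, one_smul]
      abel
  · have : reflV α β = β := by rw [reflV, h, zero_smul, sub_zero]
    rw [this]
    exact hβ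
  · refine ⟨hroot, ?_⟩
    rw [reflV, h, neg_one_smul, sub_neg_eq_add, dot_add_right]
    exact add_pos hβ.2 hα.1.2

/-- if `w` makes a positive root of the wall system of `p` negative, it does so for a simple one -/
theorem exists_simple_neg {w : Fr n} (hw : w ∈ D.W) {p : Vec n} (hp : D.Cham p) {β : Vec n}
    (hβ : D.Pos β) (hpβ : dot p β = 0) (hneg : dot D.rho (w β) < 0) :
    ∃ α, D.Simple α ∧ dot p α = 0 ∧ dot D.rho (w α) < 0 := by
  classical
  have hne : (D.roots.filter fun b => 0 < dot D.rho b ∧ dot p b = 0 ∧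
      dot D.rho (w b) < 0).Nonempty := ⟨β, Finset.mem_filter.2 ⟨hβ.1, hβ.2, hpβ, hneg⟩⟩
  obtain ⟨α, hα, hmin⟩ := Finset.exists_min_image _ (fun b => dot D.rho b) hne
  obtain ⟨hαr, hαp, hαw, hαn⟩ := Finset.mem_filter.1 hα
  refine ⟨α, ⟨⟨hαr, hαp⟩, ?_⟩, hαw, hαn⟩
  intro b1 b2 h1 h2 he
  have e1 : dot p b1 + dot p b2 = 0 := by rw [← dot_add_right, ← he, hαw]
  have p1 := hp b1 h1
  have p2 := hp b2 h2
  have e2 : dot D.rho (w b1) + dot D.rho (w b2) < 0 := by
    rw [← dot_add_right, ← map_add, ← he]
    exact hαn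
  have e3 : dot D.rho α = dot D.rho b1 + dot D.rho b2 := by rw [he, dot_add_right]
  by_cases hc : dot D.rho (w b1) < 0
  · have := hmin b1 (Finset.mem_filter.2 ⟨h1.1, h1.2, by linarith, hc⟩)
    have := h2.2
    linarith
  · have := hmin b2 (Finset.mem_filter.2 ⟨h2.1, h2.2, by linarith, by linarith⟩)
    have := h1.2
    linarith

end Claimed.Agent.R282.RDatum
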