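import Claimed.Agent.R282.S2C.B.Ge
import Claimed.Agent.R282.S2C.B.Simple

/-!
# 2C / L-B4: the lifting property of the Bruhat order, in root form

`s` = the element of `W` acting as `reflV α`, `α` simple.
PLAN.
* `down_simple`: `Down u v` with root `β`.  If `β = α` then `v = s * u`.  Otherwise `β' = reflV α β`
  is positive (`simple_perm`), `(s u ρ)·β' = (u ρ)·β < 0` (`reflV α` is an isometry: `dot_reflV`,
  `norm_two`), and `s v = s_{β'} (s u)` (conjugation formula `reflV α (reflV β x) =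
  reflV (reflV α β) (reflV α x)`).
* Define `mx u := if (u ρ)·α < 0 then u else s * u`, `mn u := if (u ρ)·α < 0 then s * u else u`
  (locally).  `Down (mx u) (mn u)`.  One step `Down u v` gives `Ge (mx u) (mx v)`, `Ge (mn u) (mn v)`:
  if `v = s u` the pairs coincide; else both `u → v` and `s u → s v` are downward, and
  `mx v ∈ {v, s v}` lies below `u` resp. `s u`, which lie below `mx u`; dually for `mn`.
  Induct on `ReflTransGen`.
* `lift_max`: `mx u = u`, `mx v ≥ s v`.  `lift_min`: `mn u = s u`, `mn v = s v`.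
Size: ~200 lines.
-/

set_option autoImplicit false

namespace Claimed.Agent.R282.RDatum

variable {n : ℕ} (D : RDatum n)

theorem frame_reflV {w : Fr n} (hw : w ∈ D.W) (β x : Vec n) :
    w (reflV β x) = reflV (w β) (w x) := by
  rw [reflV, reflV, map_sub, map_smul, D.isom w hw]

theorem c2b_s_invol {α : Vec n} (hα : α ∈ D.roots) {s : Fr n} (hsα : ∀ x, s x = reflV α x) :
    s * s = 1 := by
  ext1 x
  rw [LinearEquiv.mul_apply, hsα, hsα, D.reflV_invol hα]
  rfl

theorem c2b_s_sign {α : Vec n} (hα : α ∈ D.roots) {s : Fr n} (hsα : ∀ x, s x = reflV α x)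
    (u : Fr n) : dot ((s * u) D.rho) α = - dot (u D.rho) α := by
  rw [LinearEquiv.mul_apply, hsα, dot_reflV, D.norm_two α hα]
  ring

theorem c2b_down_s {α : Vec n} (hα : D.Pos α) {s : Fr n} (hsα : ∀ x, s x = reflV α x) {u : Fr n}
    (h : dot (u D.rho) α < 0) : D.Down u (s * u) :=
  ⟨α, hα, h, fun x => by rw [LinearEquiv.mul_apply, hsα]⟩

theorem c2b_down_s' {α : Vec n} (hα : D.Pos α) {s : Fr n} (hsα : ∀ x, s x = reflV α x) {u : Fr n}
    (h : 0 < dot (u D.rho) α) : D.Down (s * u) u := by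
  have := D.c2b_down_s hα hsα (u := s * u) (by rw [D.c2b_s_sign hα.1 hsα]; linarith)
  rwa [← mul_assoc, D.c2b_s_invol hα.1 hsα, one_mul] at this

theorem frame_rho_ne {u : Fr n} (hu : u ∈ D.W) {β : Vec n} (hβ : β ∈ D.roots) :
    dot (u D.rho) β ≠ 0 := by
  rw [D.dot_inv hu]
  exact D.rho_reg _ (D.inv_map_roots hu hβ)

theorem down_simple {α : Vec n} (hα : D.Simple α) {s : Fr n} (hs : s ∈ D.W)
    (hsα : ∀ x, s x = reflV α x) {u v : Fr n} (hu : u ∈ D.W) (h : D.Down u v) :
    v = s * u ∨ D.Down (s * u) (s * v) := by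
  obtain ⟨β, hβ, hneg, hv⟩ := h
  by_cases hβα : β = α
  · left
    ext1 x
    rw [hv, LinearEquiv.mul_apply, hsα, hβα]
  · right
    refine ⟨reflV α β, D.simple_perm hα hβ hβα, ?_, fun x => ?_⟩
    · rw [LinearEquiv.mul_apply, ← hsα β, D.isom s hs]
      exact hneg
    · rw [LinearEquiv.mul_apply, LinearEquiv.mul_apply, hv, D.frame_reflV hs, hsα β]

/-- the larger element of `{u, s u}` -/
noncomputable def c2b_mx (α : Vec n) (s u : Fr n) : Fr n :=
  if dot (u D.rho) α < 0 then u else s * u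

/-- the smaller element of `{u, s u}` -/
noncomputable def c2b_mn (α : Vec n) (s u : Fr n) : Fr n :=
  if dot (u D.rho) α < 0 then s * u else u

theorem c2b_lift_step {α : Vec n} (hα : D.Simple α) {s : Fr n} (hs : s ∈ D.W)
    (hsα : ∀ x, s x = reflV α x) {u v : Fr n} (hu : u ∈ D.W) (h : D.Down u v) :
    D.Ge (D.c2b_mx α s u) (D.c2b_mx α s v) ∧ D.Ge (D.c2b_mn α s u) (D.c2b_mn α s v) := by
  have hv : v ∈ D.W := D.down_mem hu h
  have su := D.c2b_s_sign hα.1.1 hsα u
  have sv := D.c2b_s_sign hα.1.1 hsα v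
  have nu := D.frame_rho_ne hu hα.1.1
  have nv := D.frame_rho_ne hv hα.1.1
  have ss := D.c2b_s_invol hα.1.1 hsα
  unfold c2b_mx c2b_mn
  rcases D.down_simple hα hs hsα hu h with rfl | h'
  · by_cases h1 : dot (u D.rho) α < 0
    · rw [if_pos h1, if_neg (by rw [su]; linarith), if_pos h1, if_neg (by rw [su]; linarith),
        ← mul_assoc, ss, one_mul]
      exact ⟨Relation.ReflTransGen.refl, Relation.ReflTransGen.refl⟩
    · have h1' : 0 < dot (u D.rho) α := lt_of_le_of_ne (not_lt.1 h1) (Ne.symm nu)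
      rw [if_neg h1, if_pos (by rw [su]; linarith), if_neg h1, if_pos (by rw [su]; linarith),
        ← mul_assoc, ss, one_mul]
      exact ⟨Relation.ReflTransGen.refl, Relation.ReflTransGen.refl⟩
  · by_cases h1 : dot (u D.rho) α < 0
    · rw [if_pos h1, if_pos h1]
      by_cases h2 : dot (v D.rho) α < 0
      · rw [if_pos h2, if_pos h2]
        exact ⟨Relation.ReflTransGen.single h, Relation.ReflTransGen.single h'⟩
      · have h2' : 0 < dot (v D.rho) α := lt_of_le_of_ne (not_lt.1 h2) (Ne.symm nv)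
        rw [if_neg h2, if_neg h2]
        exact ⟨(Relation.ReflTransGen.single (D.c2b_down_s hα.1 hsα h1)).tail h',
          (Relation.ReflTransGen.single h').tail (D.c2b_down_s' hα.1 hsα h2')⟩
    · have h1' : 0 < dot (u D.rho) α := lt_of_le_of_ne (not_lt.1 h1) (Ne.symm nu)
      rw [if_neg h1, if_neg h1]
      by_cases h2 : dot (v D.rho) α < 0
      · rw [if_pos h2, if_pos h2]
        exact ⟨(Relation.ReflTransGen.single (D.c2b_down_s' hα.1 hsα h1')).tail h,
          (Relation.ReflTransGen.single h).tail (D.c2b_down_s hα.1 hsα h2)⟩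
      · rw [if_neg h2, if_neg h2]
        exact ⟨Relation.ReflTransGen.single h', Relation.ReflTransGen.single h⟩

theorem c2b_lift_ge {α : Vec n} (hα : D.Simple α) {s : Fr n} (hs : s ∈ D.W)
    (hsα : ∀ x, s x = reflV α x) {u v : Fr n} (hu : u ∈ D.W) (h : D.Ge u v) :
    D.Ge (D.c2b_mx α s u) (D.c2b_mx α s v) ∧ D.Ge (D.c2b_mn α s u) (D.c2b_mn α s v) := by
  induction h with
  | refl => exact ⟨Relation.ReflTransGen.refl, Relation.ReflTransGen.refl⟩
  | tail h1 h2 ih =>
    obtain ⟨a, b⟩ := D.c2b_lift_step hα hs hsα (D.ge_mem hu h1) h2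
    exact ⟨ih.1.trans a, ih.2.trans b⟩

/-- `u ≥ v`, `s u < u` ⇒ `u ≥ s v` -/
theorem lift_max {α : Vec n} (hα : D.Simple α) {s : Fr n} (hs : s ∈ D.W)
    (hsα : ∀ x, s x = reflV α x) {u v : Fr n} (hu : u ∈ D.W) (h : D.Ge u v)
    (hd : dot (u D.rho) α < 0) : D.Ge u (s * v) := by
  have h1 := (D.c2b_lift_ge hα hs hsα hu h).1
  unfold c2b_mx at h1
  rw [if_pos hd] at h1
  by_cases h2 : dot (v D.rho) α < 0
  · exact h.tail (D.c2b_down_s hα.1 hsα h2)
  · rwa [if_neg h2] at h1

/-- `u ≥ v`, `s u < u`, `s v < v` ⇒ `s u ≥ s v` -/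
theorem lift_min {α : Vec n} (hα : D.Simple α) {s : Fr n} (hs : s ∈ D.W)
    (hsα : ∀ x, s x = reflV α x) {u v : Fr n} (hu : u ∈ D.W) (h : D.Ge u v)
    (hd : dot (u D.rho) α < 0) (hd' : dot (v D.rho) α < 0) : D.Ge (s * u) (s * v) := by
  have h1 := (D.c2b_lift_ge hα hs hsα hu h).2
  unfold c2b_mn at h1
  rwa [if_pos hd, if_pos hd'] at h1

/-- `u ≥ v`, `s v > v` ⇒ `s u ≥ v` and `u ≥ v` gives the minimal representatives -/
theorem lift_min' {α : Vec n} (hα : D.Simple α) {s : Fr n} (hs : s ∈ D.W)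
    (hsα : ∀ x, s x = reflV α x) {u v : Fr n} (hu : u ∈ D.W) (h : D.Ge u v)
    (hd' : 0 < dot (v D.rho) α) : D.Ge (s * u) v := by
  have h1 := (D.c2b_lift_ge hα hs hsα hu h).2
  unfold c2b_mn at h1
  rw [if_neg (not_lt.2 hd'.le)] at h1
  by_cases h2 : dot (u D.rho) α < 0
  · rwa [if_pos h2] at h1
  · have h2' : 0 < dot (u D.rho) α :=
      lt_of_le_of_ne (not_lt.1 h2) (Ne.symm (D.frame_rho_ne hu hα.1.1))
    exact (Relation.ReflTransGen.single (D.c2b_down_s' hα.1 hsα h2')).trans h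

end Claimed.Agent.R282.RDatum
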