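import Claimed.Agent.R282.S2C.B.Lift
import Claimed.Agent.R282.S2C.B.Cham

/-!
# 2C / L-B5: stabilisers of points of the chamber; the chamber is a fundamental domain

PLAN.  `inv g := #{β positive | ρ·(g⁻¹ β) < 0}` (Finset.filter on `D.roots`).
* `inv g = 0 ⇒ g = 1` (axiom `free` for `g⁻¹`).
* if `α` simple, `s = s_α`, `ρ·(g⁻¹ α) < 0` then `inv (s g) < inv g`: `(s g)⁻¹ β = g⁻¹ (reflV α β)`,
  `reflV α` permutes the positive roots `≠ α` (`simple_perm`), and `α` itself is removed.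
* `stab_induction`: strong induction on `inv g`.  `g ≠ 1` ⇒ some positive `β` with `ρ·(g⁻¹β) < 0`
  ⇒ (`exists_simple_neg` with `p := 0`) a simple `α` with `ρ·(g⁻¹ α) < 0`.  Since `g p = p`:
  `0 ≤ p·α = (g p)·α = p·(g⁻¹ α) ≤ 0`, so `p·α = 0`, `s p = p`, `g' = s g` fixes `p`,
  `ρ·(g'⁻¹ α) = -ρ·(g⁻¹α) > 0`, and `g = s g'`.
* `cham_fix` (`p, g p ∈ Cham ⇒ g p = p`): same induction on `inv g` (statement for all `p`):
  with `α` as above, `0 ≤ (g p)·α = p·(g⁻¹α) ≤ 0`, so `s (g p) = g p` and `(s g) p = g p`.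
* `cham_unique` from `cham_fix` with `p := g z`, `g' g⁻¹`.
Size: ~300 lines.
-/

set_option autoImplicit false

namespace Claimed.Agent.R282.RDatum

variable {n : ℕ} (D : RDatum n)

/-- well-founded induction along downward reflections -/
theorem down_induction (P : Fr n → Prop) (h : ∀ u ∈ D.W, (∀ v, D.Down u v → P v) → P u)
    {u : Fr n} (hu : u ∈ D.W) : P u := by
  haveI := D.finW
  let r : D.W → D.W → Prop := fun v u => dot D.rho (u.1 D.rho) < dot D.rho (v.1 D.rho)
  haveI : IsTrans D.W r := ⟨fun a b c h1 h2 => lt_trans h2 h1⟩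
  haveI : IsIrrefl D.W r := ⟨fun a => lt_irrefl _⟩
  have wf : WellFounded r := Finite.wellFounded_of_trans_of_irrefl r
  have key : ∀ u : D.W, P u.1 := fun u => wf.induction u (fun u ih => h u.1 u.2 fun v hv =>
    ih ⟨v, D.down_mem u.2 hv⟩ (D.down_dot_lt u.2 hv D.rho_reg' D.rho_reg'))
  exact key ⟨u, hu⟩

/-- an element `≠ 1` has a simple left descent -/
theorem one_or_simple {g : Fr n} (hg : g ∈ D.W) :
    g = 1 ∨ ∃ α, D.Simple α ∧ dot (g D.rho) α < 0 := by
  by_cases h : ∀ β ∈ D.roots, 0 < dot D.rho β → 0 < dot D.rho (g⁻¹ β)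
  · left
    have := D.free _ (D.W.inv_mem hg) h
    rw [← inv_inv g, this, inv_one]
  · right
    push Not at h
    obtain ⟨β, hβ, hpos, hle⟩ := h
    have hlt : dot D.rho (g⁻¹ β) < 0 := lt_of_le_of_ne hle (D.rho_reg _ (D.inv_map_roots hg hβ))
    obtain ⟨α, hα, -, hneg⟩ := D.exists_simple_neg (D.W.inv_mem hg) (p := 0)
      (fun γ _ => by rw [dot_zero_left]) ⟨hβ, hpos⟩ (dot_zero_left _) hlt
    exact ⟨α, hα, by rw [D.dot_inv hg]; exact hneg⟩

/-- a left descent `α` of `g` pairs to zero with `g p` when `p` and `g p` are dominant -/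
theorem c2b_descent_zero {g : Fr n} (hg : g ∈ D.W) {α : Vec n} (hα : D.Pos α)
    (hneg : dot (g D.rho) α < 0) {p : Vec n} (hp : D.Cham p) (hgp : D.Cham (g p)) :
    dot (g p) α = 0 :=
  le_antisymm (D.dot_frame_nonpos hg hα.1 hneg hp) (hgp α hα)

/-- induction over the stabiliser of `p ∈ Cham`: it is generated by simple reflections fixing `p`,
added on the left in a length-increasing way -/
theorem stab_induction {p : Vec n} (hp : D.Cham p) (P : Fr n → Prop) (h1 : P 1)
    (hstep : ∀ (g s : Fr n) (α : Vec n), g ∈ D.W → g p = p → s ∈ D.W → (∀ x, s x = reflV α x) →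
      D.Simple α → dot p α = 0 → 0 < dot D.rho (g⁻¹ α) → P g → P (s * g))
    {g : Fr n} (hg : g ∈ D.W) (hgp : g p = p) : P g := by
  revert hgp
  refine D.down_induction (fun g => g p = p → P g) ?_ hg
  intro g hg ih hgp
  rcases D.one_or_simple hg with rfl | ⟨α, hα, hneg⟩
  · exact h1
  · obtain ⟨s, hs, hsα⟩ := D.refl_mem α hα.1.1
    have hz : dot p α = 0 := by
      have := D.c2b_descent_zero hg hα.1 hneg hp (by rw [hgp]; exact hp)
      rwa [hgp] at this
    have hsp : (s * g) p = p := by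
      rw [LinearEquiv.mul_apply, hgp, hsα, reflV, hz, zero_smul, sub_zero]
    have hsg : s * g ∈ D.W := D.W.mul_mem hs hg
    have h2 := ih (s * g) (D.c2b_down_s hα.1 hsα hneg) hsp
    have h3 : 0 < dot D.rho ((s * g)⁻¹ α) := by
      rw [← D.dot_inv hsg, D.c2b_s_sign hα.1.1 hsα]
      linarith
    have := hstep (s * g) s α hsg hsp hs hsα hα hz h3 h2
    rwa [← mul_assoc, D.c2b_s_invol hα.1.1 hsα, one_mul] at this

theorem cham_fix {p : Vec n} (hp : D.Cham p) {g : Fr n} (hg : g ∈ D.W) (h : D.Cham (g p)) :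
    g p = p := by
  revert h
  refine D.down_induction (fun g => D.Cham (g p) → g p = p) ?_ hg
  intro g hg ih h
  rcases D.one_or_simple hg with rfl | ⟨α, hα, hneg⟩
  · rfl
  · obtain ⟨s, hs, hsα⟩ := D.refl_mem α hα.1.1
    have hz := D.c2b_descent_zero hg hα.1 hneg hp h
    have hsp : (s * g) p = g p := by
      rw [LinearEquiv.mul_apply, hsα, reflV, hz, zero_smul, sub_zero]
    have h2 := ih (s * g) (D.c2b_down_s hα.1 hsα hneg) (by rw [hsp]; exact h)
    rw [← hsp, h2]

/-- (B4) the chamber is a fundamental domain -/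
theorem cham_unique {z : Vec n} {g g' : Fr n} (hg : g ∈ D.W) (hg' : g' ∈ D.W)
    (h : D.Cham (g z)) (h' : D.Cham (g' z)) : g z = g' z := by
  have e : (g' * g⁻¹) (g z) = g' z := by
    rw [LinearEquiv.mul_apply]
    congr 1
    exact LinearEquiv.symm_apply_apply g z
  have := D.cham_fix h (D.W.mul_mem hg' (D.W.inv_mem hg)) (by rw [e]; exact h')
  rw [← this, e]

/-- regular points have trivial stabiliser and lie in exactly one chamber -/
theorem reg_unique {z : Vec n} {g g' : Fr n} (hg : g ∈ D.W) (hg' : g' ∈ D.W)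
    (h : D.Reg (g z)) (h' : D.Cham (g' z)) : g = g' := by
  have e : (g' * g⁻¹) (g z) = g' z := by
    rw [LinearEquiv.mul_apply]
    congr 1
    exact LinearEquiv.symm_apply_apply g z
  have hk : g' * g⁻¹ ∈ D.W := D.W.mul_mem hg' (D.W.inv_mem hg)
  have hfix : (g' * g⁻¹) (g z) = g z := by rw [e, D.cham_unique hg hg' h.cham h']
  have hone : g' * g⁻¹ = 1 := by
    apply D.free _ hk
    intro β hβ hpos
    have h1 : 0 < dot (g z) ((g' * g⁻¹) β) := by
      rw [← hfix, D.isom _ hk]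
      exact h β ⟨hβ, hpos⟩
    exact (D.pos_of_dot_pos h.cham (D.map_roots _ hk β hβ) h1).2
  exact (mul_inv_eq_one.1 hone).symm

end Claimed.Agent.R282.RDatum
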