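import Claimed.Agent.R282.S2C.B.Lift
import Claimed.Agent.R282.S2C.B.Stab

/-!
# 2C / L-B6: parabolic facts (paper: `(real:parabolic)` and the paragraph before it)

`p ∈ Cham`; `PMax p u` / `PMin p u` : `u` is maximal / minimal in `Stab(p) u`.
PLAN.
* `exists_pmax` / `exists_pmin`: over the finite set `{k ∈ W | k p = p}` minimise (maximise)
  `ρ·(k u ρ)`.  If a positive `β ⊥ p` had `(k u ρ)·β > 0`, then `s_β k` fixes `p` and
  `ρ·(s_β k u ρ) = ρ·(k u ρ) - ((kuρ)·β)(β·ρ)` is smaller.  (`≠ 0` by `rho_reg` + `dot_inv`.)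
* `pmax_ge_coset`: `stab_induction` on `k` with `P k := Ge u (k * v)`; step = `lift_max`
  (`(u ρ)·α < 0` because `PMax p u`, `α` positive, `α ⊥ p`).
* `pmax_all`: `stab_induction` on `g` with `P g := Ge (g u) (g v)`; step: `g⁻¹ α` is a positive root
  orthogonal to `p` (`g` fixes `p`), so `(g u ρ)·α = (u ρ)·(g⁻¹α) < 0`, same for `v`; `lift_min`.
* `ge_pmin`: first `∃ k', k' p = p, PMin p (k' v), Ge v (k' v)`: well-founded descent: while some
  positive `β ⊥ p` has `(x ρ)·β < 0`, `Down x (s_β x)`; `ρ·(xρ)` increases, finitely many values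
  (or: choose `k'` maximising `ρ·(k' v ρ)` among those `k'` with `Ge v (k' v)`).
  Then uniqueness of the minimal element: `x = k v`, `y = k' v = h x`, `h` fixes `p`; if `h ≠ 1`,
  as in `stab_induction` there is a simple `α ⊥ p` with `ρ·(h⁻¹α) < 0`; `-(h⁻¹ α)` is a positive root
  `⊥ p`, so `(y ρ)·α = (x ρ)·(h⁻¹ α) < 0`, contradicting `PMin p y`.
Size: ~350 lines.
-/

set_option autoImplicit false

namespace Claimed.Agent.R282.RDatum

variable {n : ℕ} (D : RDatum n)

/-- well-founded induction along upward reflections -/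
theorem up_induction (P : Fr n → Prop) (h : ∀ u ∈ D.W, (∀ v ∈ D.W, D.Down v u → P v) → P u)
    {u : Fr n} (hu : u ∈ D.W) : P u := by
  haveI := D.finW
  let r : D.W → D.W → Prop := fun v u => dot D.rho (v.1 D.rho) < dot D.rho (u.1 D.rho)
  haveI : IsTrans D.W r := ⟨fun a b c h1 h2 => lt_trans h1 h2⟩
  haveI : IsIrrefl D.W r := ⟨fun a => lt_irrefl _⟩
  have wf : WellFounded r := Finite.wellFounded_of_trans_of_irrefl r
  have key : ∀ u : D.W, P u.1 := fun u => wf.induction u (fun u ih => h u.1 u.2 fun v hv hd =>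
    ih ⟨v, hv⟩ (D.down_dot_lt hv hd D.rho_reg' D.rho_reg'))
  exact key ⟨u, hu⟩

theorem c2b_refl_fix {β p : Vec n} {s : Fr n} (hs : ∀ x, s x = reflV β x) (h : dot p β = 0) :
    s p = p := by
  rw [hs, reflV, h, zero_smul, sub_zero]

/-- (B7) maximal coset representatives exist -/
theorem exists_pmax {p : Vec n} (hp : D.Cham p) {u : Fr n} (hu : u ∈ D.W) :
    ∃ k ∈ D.W, k p = p ∧ D.PMax p (k * u) := by
  refine D.up_induction (fun u => ∃ k ∈ D.W, k p = p ∧ D.PMax p (k * u)) ?_ hu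
  intro x hx ih
  by_cases hm : D.PMax p x
  · exact ⟨1, D.W.one_mem, rfl, by rwa [one_mul]⟩
  · unfold PMax at hm
    push Not at hm
    obtain ⟨β, hβ, hpβ, hle⟩ := hm
    have hpos : 0 < dot (x D.rho) β := lt_of_le_of_ne hle (Ne.symm (D.frame_rho_ne hx hβ.1))
    obtain ⟨s, hs, hsβ⟩ := D.refl_mem β hβ.1
    obtain ⟨k, hk, hkp, hmax⟩ := ih (s * x) (D.W.mul_mem hs hx) (D.c2b_down_s' hβ hsβ hpos)
    refine ⟨k * s, D.W.mul_mem hk hs, ?_, by rwa [mul_assoc]⟩
    rw [LinearEquiv.mul_apply, c2b_refl_fix hsβ hpβ, hkp]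

/-- minimal coset representatives exist, below the given element -/
theorem exists_pmin_ge {p : Vec n} {u : Fr n} (hu : u ∈ D.W) :
    ∃ k ∈ D.W, k p = p ∧ D.PMin p (k * u) ∧ D.Ge u (k * u) := by
  refine D.down_induction (fun u => ∃ k ∈ D.W, k p = p ∧ D.PMin p (k * u) ∧ D.Ge u (k * u)) ?_ hu
  intro x hx ih
  by_cases hm : D.PMin p x
  · exact ⟨1, D.W.one_mem, rfl, by rwa [one_mul], by rw [one_mul]; exact Relation.ReflTransGen.refl⟩
  · unfold PMin at hm
    push Not at hm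
    obtain ⟨β, hβ, hpβ, hle⟩ := hm
    have hneg : dot (x D.rho) β < 0 := lt_of_le_of_ne hle (D.frame_rho_ne hx hβ.1)
    obtain ⟨s, hs, hsβ⟩ := D.refl_mem β hβ.1
    have hd := D.c2b_down_s hβ hsβ hneg
    obtain ⟨k, hk, hkp, hmin, hge⟩ := ih (s * x) hd
    refine ⟨k * s, D.W.mul_mem hk hs, ?_, by rwa [mul_assoc], ?_⟩
    · rw [LinearEquiv.mul_apply, c2b_refl_fix hsβ hpβ, hkp]
    · rw [mul_assoc]
      exact Relation.ReflTransGen.head hd hge

theorem exists_pmin {p : Vec n} (hp : D.Cham p) {u : Fr n} (hu : u ∈ D.W) :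
    ∃ k ∈ D.W, k p = p ∧ D.PMin p (k * u) := by
  obtain ⟨k, hk, hkp, hmin, -⟩ := D.exists_pmin_ge (p := p) hu
  exact ⟨k, hk, hkp, hmin⟩

/-- (B8) lifting: a maximal element dominates the whole coset of anything below it -/
theorem pmax_ge_coset {p : Vec n} (hp : D.Cham p) {u v k : Fr n} (hu : u ∈ D.W)
    (h : D.Ge u v) (hmax : D.PMax p u) (hk : k ∈ D.W) (hkp : k p = p) : D.Ge u (k * v) := by
  refine D.stab_induction hp (fun k => D.Ge u (k * v)) (by rwa [one_mul]) ?_ hk hkp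
  intro g s α _ _ hs hsα hα hpα _ hP
  rw [mul_assoc]
  exact D.lift_max hα hs hsα hu hP (hmax α hα.1 hpα)

/-- (B9) `(real:parabolic)` -/
theorem pmax_all {p : Vec n} (hp : D.Cham p) {u v g : Fr n} (hu : u ∈ D.W) (h : D.Ge u v)
    (h1 : D.PMax p u) (h2 : D.PMax p v) (hg : g ∈ D.W) (hgp : g p = p) :
    D.Ge (g * u) (g * v) := by
  refine D.stab_induction hp (fun g => D.Ge (g * u) (g * v)) (by rwa [one_mul, one_mul]) ?_ hg hgp
  intro g s α hg hgp hs hsα hα hpα hpos hP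
  have hγ : D.Pos (g⁻¹ α) := ⟨D.inv_map_roots hg hα.1.1, hpos⟩
  have hpγ : dot p (g⁻¹ α) = 0 := by rw [← D.dot_inv hg, hgp, hpα]
  rw [mul_assoc, mul_assoc]
  apply D.lift_min hα hs hsα (D.W.mul_mem hg hu) hP
  · rw [LinearEquiv.mul_apply, D.dot_inv hg]
    exact h1 _ hγ hpγ
  · rw [LinearEquiv.mul_apply, D.dot_inv hg]
    exact h2 _ hγ hpγ

/-- the minimal coset representative is unique -/
theorem pmin_unique {p : Vec n} (hp : D.Cham p) {x h : Fr n} (hh : h ∈ D.W)
    (hhp : h p = p) (h1 : D.PMin p x) (h2 : D.PMin p (h * x)) : h = 1 := by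
  rcases D.one_or_simple hh with rfl | ⟨α, hα, hneg⟩
  · rfl
  · exfalso
    have hz : dot p α = 0 := by
      have := D.c2b_descent_zero hh hα.1 hneg hp (by rw [hhp]; exact hp)
      rwa [hhp] at this
    have hγ : D.Pos (-(h⁻¹ α)) := by
      refine ⟨D.neg_mem (D.inv_map_roots hh hα.1.1), ?_⟩
      rw [dot_neg_right, ← D.dot_inv hh]
      linarith
    have hpγ : dot p (-(h⁻¹ α)) = 0 := by
      rw [dot_neg_right, ← D.dot_inv hh, hhp, hz, neg_zero]
    have a1 := h1 _ hγ hpγ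
    have a2 := h2 α hα.1 hz
    rw [LinearEquiv.mul_apply, D.dot_inv hh] at a2
    rw [dot_neg_right] at a1
    linarith

/-- (B10) the minimal coset representative is below every element of the coset -/
theorem ge_pmin {p : Vec n} (hp : D.Cham p) {v k : Fr n} (hv : v ∈ D.W) (hk : k ∈ D.W)
    (hkp : k p = p) (hmin : D.PMin p (k * v)) : D.Ge v (k * v) := by
  obtain ⟨k', hk', hkp', hmin', hge⟩ := D.exists_pmin_ge (p := p) hv
  have hh : k' * k⁻¹ ∈ D.W := D.W.mul_mem hk' (D.W.inv_mem hk)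
  have hkinv : k⁻¹ p = p := by
    conv_lhs => rw [← hkp]
    exact LinearEquiv.symm_apply_apply k p
  have hhp : (k' * k⁻¹) p = p := by rw [LinearEquiv.mul_apply, hkinv, hkp']
  have e : (k' * k⁻¹) * (k * v) = k' * v := by group
  have := D.pmin_unique hp hh hhp hmin (by rw [e]; exact hmin')
  have e2 : k' = k := mul_inv_eq_one.1 this
  rwa [e2] at hge

end Claimed.Agent.R282.RDatum
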