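import Claimed.Agent.R282.S2C.B.Flip

/-!
# 2C / L-B8 + L-B9: the SORTED CHAIN LEMMA (replaces Lemma "Flag orbit polytopes")

`flip` (L-B8): two consecutive downward steps `u →γ₁ h →γ₂ v` with `T γ₂ < T γ₁` can be replaced by
`u →γ₁' h' →γ₂' v` with `T γ₁' < T γ₁`.
Write `N = {γ > 0 : u γ < 0}`.  `γ₁ ∈ N`, and `h γ₂ = u (reflV γ₁ γ₂) < 0`.  `γ₁ ≠ γ₂`.  Cases (`pair_int`):
 (0) `γ₁·γ₂ = 0`: `(γ₂, γ₁)`.
 (-1) `γ₁·γ₂ = -1`, `c = γ₁ + γ₂` root, `u c < 0` is the second step condition.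
     (a) `u γ₂ < 0`: `(γ₂, c)`   [`u s_{γ₂} c = u γ₁ < 0`; `s_{γ₁} s_{γ₂} = s_{γ₂} s_c`]
     (b) `u γ₂ > 0`: `(c, γ₁)`   [`u s_c γ₁ = - u γ₂ < 0`; `s_{γ₁} s_{γ₂} = s_c s_{γ₁}`]
     `T γ₂ < T γ₁` and convexity give `T γ₂ < T c < T γ₁`.
 (+1) `γ₁·γ₂ = 1`: `γ₂ - γ₁` or `γ₁ - γ₂` is a positive root `b`.
     (c) `γ₂ = γ₁ + b`: second condition: `u (reflV γ₁ γ₂) = u b < 0`.  New route `(b, γ₁)`
         [`u s_b γ₁ = u γ₂ = u γ₁ + u b < 0`; `s_{γ₁} s_{γ₂} = s_b s_{γ₁}`];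
         `T γ₂ < T γ₁`, `γ₂ = γ₁ + b` ⇒ `T b < T γ₂ < T γ₁`.
     (d) `γ₁ = γ₂ + b`: second condition: `u (reflV γ₁ γ₂) = u (γ₂ - γ₁) = - u b < 0`, so `u b > 0`,
         hence `u γ₂ = u γ₁ - u b < 0`.  New route `(γ₂, b)`
         [`u s_{γ₂} b = u γ₁ < 0`; `s_{γ₁} s_{γ₂} = s_{γ₂} s_b`]; `T γ₂ < T γ₁`.
   ("`u x < 0`" means `ρ·(u x) < 0`; all identities of reflections: ext + `reflV` + `ring`/`module`.)
`sorted_chain` (L-B9): bubble sort.  Termination: the list of labels `(T γ₁, T γ₂, …)` decreases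
lexicographically and takes values in the finite set `T '' roots`; e.g. strong induction on
`∑_i rank(T γ_i) * (|roots|+1)^(m-i)`, or induction on the length `m`: sort the tail (IH), then if
the head is out of order flip the first two and recurse on `rank (T γ₁)` (well-founded on ℕ):
`sortAux : ∀ r m, (chains of length m with rank (T head) ≤ r)`.
Size: L-B8 ~300 lines, L-B9 ~200 lines.
-/

set_option autoImplicit false

namespace Claimed.Agent.R282.RDatum

variable {n : ℕ} (D : RDatum n)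

/-- the rank of a label -/
noncomputable def c2b9_rank (T : Vec n → ℝ) (γ : Vec n) : ℕ :=
  (D.roots.filter fun β => T β < T γ).card

theorem c2b9_rank_lt {T : Vec n → ℝ} {γ γ' : Vec n} (hγ' : γ' ∈ D.roots) (h : T γ' < T γ) :
    D.c2b9_rank T γ' < D.c2b9_rank T γ := by
  apply Finset.card_lt_card
  rw [Finset.ssubset_iff_of_subset]
  · exact ⟨γ', Finset.mem_filter.2 ⟨hγ', h⟩, fun hcon => lt_irrefl _ (Finset.mem_filter.1 hcon).2⟩
  · intro β hβ
    rw [Finset.mem_filter] at hβ ⊢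
    exact ⟨hβ.1, hβ.2.trans h⟩

/-- one more element in front of chains that can be sorted -/
theorem c2b9_step {v : Fr n} {T : Vec n → ℝ} (hT : D.ConvexLabel T) (m : ℕ)
    (IH : ∀ (u : Fr n) (l : List (Vec n)), u ∈ D.W → l.length = m → D.ChainR u l v →
      ∃ l', D.ChainR u l' v ∧ l'.length = m ∧ l'.Pairwise (fun a b => T a ≤ T b))
    {u : Fr n} (hu : u ∈ D.W) (r : ℕ) :
    ∀ (γ : Vec n) (l : List (Vec n)), D.c2b9_rank T γ = r → l.length = m →
      D.ChainR u (γ :: l) v →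
      ∃ l', D.ChainR u l' v ∧ l'.length = m + 1 ∧ l'.Pairwise (fun a b => T a ≤ T b) := by
  induction r using Nat.strong_induction_on with
  | _ r ihr =>
    intro γ l hr hl hch
    obtain ⟨h, hd, hc⟩ := hch
    have hh : h ∈ D.W := D.c2b7_downR_mem hu hd
    obtain ⟨l₁, hc₁, hl₁, hs₁⟩ := IH h l hh hl hc
    cases l₁ with
    | nil =>
      exact ⟨[γ], ⟨h, hd, hc₁⟩, by simp only [List.length_nil, List.length_cons] at hl₁ ⊢; omega,
        List.pairwise_singleton _ _⟩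
    | cons γ₂ l₂ =>
      by_cases hle : T γ ≤ T γ₂
      · refine ⟨γ :: γ₂ :: l₂, ⟨h, hd, hc₁⟩, by simp only [List.length_cons] at hl₁ ⊢; omega, ?_⟩
        rw [List.pairwise_cons]
        refine ⟨fun a' ha' => ?_, hs₁⟩
        rcases List.mem_cons.1 ha' with rfl | ha'
        · exact hle
        · exact hle.trans ((List.pairwise_cons.1 hs₁).1 a' ha')
      · obtain ⟨h₂, hd₂, hc₂⟩ := hc₁
        obtain ⟨h', γ₁', γ₂', e1, e2, e3⟩ := D.flip hu hd hd₂ hT (not_le.1 hle)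
        exact ihr _ (hr ▸ D.c2b9_rank_lt e1.1.1 e3) γ₁' (γ₂' :: l₂) rfl
          (by simp only [List.length_cons] at hl₁ ⊢; omega) ⟨h', e1, h₂, e2, hc₂⟩

/-- (B12 = L-B9) SORTED CHAIN LEMMA -/
theorem sorted_chain {u v : Fr n} {l : List (Vec n)} (hu : u ∈ D.W) (h : D.ChainR u l v)
    {T : Vec n → ℝ} (hT : D.ConvexLabel T) :
    ∃ l', D.ChainR u l' v ∧ l'.length = l.length ∧ l'.Pairwise (fun a b => T a ≤ T b) := by
  have key : ∀ (m : ℕ) (u : Fr n) (l : List (Vec n)), u ∈ D.W → l.length = m → D.ChainR u l v →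
      ∃ l', D.ChainR u l' v ∧ l'.length = m ∧ l'.Pairwise (fun a b => T a ≤ T b) := by
    intro m
    induction m with
    | zero =>
      intro u l _ hl hch
      exact ⟨l, hch, hl, by rw [List.length_eq_zero_iff.1 hl]; exact List.Pairwise.nil⟩
    | succ m ih =>
      intro u l hu hl hch
      cases l with
      | nil => simp at hl
      | cons γ l =>
        exact D.c2b9_step hT m ih hu _ γ l rfl (by simpa using hl) hch
  exact key l.length u l hu rfl h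

end Claimed.Agent.R282.RDatum
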